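import Mathlib

/-!
# A quadratic-in-dimension bound on the squared Euclidean Steinitz constant

Nearest point in a zonotope, independent rounding of the fractional coordinates,
and peeling one dimension whenever the origin is not reachable.
-/

open scoped InnerProductSpace
open Finset

namespace Vale.Agent.Lib.P262

variable {E : Type*} [NormedAddCommGroup E] [InnerProductSpace ℝ E]
variable {ι : Type*}

set_option linter.unusedSectionVars false

/-- All partial sums along the list, started at `x`, have squared norm at most `B`. -/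
def GoodList (v : ι → E) (B : ℝ) : E → List ι → Prop
  | x, [] => ‖x‖ ^ 2 ≤ B
  | x, i :: l => ‖x‖ ^ 2 ≤ B ∧ GoodList v B (x + v i) l

lemma GoodList.mono {v : ι → E} {B B' : ℝ} (h : B ≤ B') :
    ∀ {x : E} {l : List ι}, GoodList v B x l → GoodList v B' x l
  | _, [], hg => le_trans hg h
  | _, _ :: _, hg => ⟨le_trans hg.1 h, GoodList.mono h hg.2⟩

lemma GoodList.append {v : ι → E} {B : ℝ} :
    ∀ {x : E} {l₁ l₂ : List ι}, GoodList v B x l₁ →
      GoodList v B (x + (l₁.map v).sum) l₂ → GoodList v B x (l₁ ++ l₂)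
  | _, [], _, _, h₂ => by simpa using h₂
  | _, _ :: _, _, h₁, h₂ =>
      ⟨h₁.1, GoodList.append h₁.2 (by simpa [add_assoc] using h₂)⟩

lemma GoodList.initSeg {v : ι → E} {B : ℝ} :
    ∀ {x : E} {l : List ι}, GoodList v B x l → ∀ k : ℕ,
      ‖x + ((l.take k).map v).sum‖ ^ 2 ≤ B
  | _, [], h, _ => by simpa [GoodList] using h
  | _, _ :: _, h, 0 => by simpa using h.1
  | _, _ :: _, h, k + 1 => by simpa [add_assoc] using GoodList.initSeg h.2 k

section Good
variable [DecidableEq ι]

/-- The finite family `G` can be ordered so that all partial sums from `x` are controlled. -/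
def Good (v : ι → E) (B : ℝ) (x : E) (G : Finset ι) : Prop :=
  ∃ l : List ι, l.Nodup ∧ l.toFinset = G ∧ GoodList v B x l

lemma Good.mono {v : ι → E} {B B' : ℝ} {x : E} {G : Finset ι} (h : B ≤ B')
    (hg : Good v B x G) : Good v B' x G := by
  obtain ⟨l, h1, h2, h3⟩ := hg
  exact ⟨l, h1, h2, h3.mono h⟩

lemma Good.union {v : ι → E} {B : ℝ} {x : E} {G₁ G₂ : Finset ι} (hd : Disjoint G₁ G₂)
    (h₁ : Good v B x G₁) (h₂ : Good v B (x + ∑ i ∈ G₁, v i) G₂) : Good v B x (G₁ ∪ G₂) := by
  obtain ⟨l₁, n₁, e₁, g₁⟩ := h₁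
  obtain ⟨l₂, n₂, e₂, g₂⟩ := h₂
  refine ⟨l₁ ++ l₂, ?_, ?_, ?_⟩
  · refine List.nodup_append.2 ⟨n₁, n₂, ?_⟩
    intro a ha b hb hab
    subst hab
    have h1 : a ∈ G₁ := by rw [← e₁]; simpa using ha
    have h2 : a ∈ G₂ := by rw [← e₂]; simpa using hb
    exact (Finset.disjoint_left.1 hd h1) h2
  · rw [List.toFinset_append, e₁, e₂]
  · refine g₁.append ?_
    have : (l₁.map v).sum = ∑ i ∈ G₁, v i := by
      rw [← e₁, List.sum_toFinset _ n₁]
    rwa [this]

lemma good_empty {v : ι → E} {B : ℝ} {x : E} (h : ‖x‖ ^ 2 ≤ B) : Good v B x ∅ :=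
  ⟨[], List.nodup_nil, by simp, h⟩

lemma good_singleton {v : ι → E} {B : ℝ} {x : E} {i : ι} (h : ‖x‖ ^ 2 ≤ B)
    (h' : ‖x + v i‖ ^ 2 ≤ B) : Good v B x {i} :=
  ⟨[i], List.nodup_singleton i, by simp, h, h'⟩

end Good

/-! ### Projection along a unit vector -/

/-- Orthogonal projection onto the complement of the line of `u`. -/
noncomputable def proj (u z : E) : E := z - ⟪u, z⟫_ℝ • u

lemma proj_add (u a b : E) : proj u (a + b) = proj u a + proj u b := by
  simp only [proj, inner_add_right, add_smul]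
  abel

lemma proj_sum {ι' : Type*} (u : E) (s : Finset ι') (f : ι' → E) :
    proj u (∑ i ∈ s, f i) = ∑ i ∈ s, proj u (f i) := by
  classical
  induction s using Finset.induction_on with
  | empty => simp [proj]
  | insert a s ha ih => rw [Finset.sum_insert ha, Finset.sum_insert ha, proj_add, ih]

lemma norm_sq_decomp {u : E} (hu : ‖u‖ = 1) (z : E) :
    ‖z‖ ^ 2 = ⟪u, z⟫_ℝ ^ 2 + ‖proj u z‖ ^ 2 := by
  have h1 : ‖proj u z‖ ^ 2 = ‖z‖ ^ 2 - 2 * ⟪z, ⟪u, z⟫_ℝ • u⟫_ℝ + ‖⟪u, z⟫_ℝ • u‖ ^ 2 := by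
    rw [proj, norm_sub_sq_real]
  have h2 : ⟪z, ⟪u, z⟫_ℝ • u⟫_ℝ = ⟪u, z⟫_ℝ * ⟪u, z⟫_ℝ := by
    rw [inner_smul_right, real_inner_comm]
  have h3 : ‖⟪u, z⟫_ℝ • u‖ ^ 2 = ⟪u, z⟫_ℝ ^ 2 := by
    rw [norm_smul, hu, mul_one, Real.norm_eq_abs, sq_abs]
  rw [h1, h2, h3]
  ring

lemma inner_sq_le {u : E} (hu : ‖u‖ = 1) (z : E) : ⟪u, z⟫_ℝ ^ 2 ≤ ‖z‖ ^ 2 := by
  have := norm_sq_decomp hu z
  nlinarith [sq_nonneg ‖proj u z‖]

lemma proj_norm_sq_le {u : E} (hu : ‖u‖ = 1) (z : E) : ‖proj u z‖ ^ 2 ≤ ‖z‖ ^ 2 := by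
  have := norm_sq_decomp hu z
  nlinarith [sq_nonneg (⟪u, z⟫_ℝ)]

lemma list_sum_nonpos {α : Type*} (l : List α) (f : α → ℝ) (h : ∀ a ∈ l, f a ≤ 0) :
    (l.map f).sum ≤ 0 := by
  induction l with
  | nil => simp
  | cons a l ih =>
    simp only [List.map_cons, List.sum_cons]
    have h1 := h a List.mem_cons_self
    have h2 := ih (fun b hb => h b (List.mem_cons_of_mem _ hb))
    linarith

/-- Lifting along a direction in which all steps are nonpositive. -/
lemma lift_neg {u : E} (hu : ‖u‖ = 1) {v : ι → E} {B' : ℝ} :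
    ∀ (l : List ι) (x : E) (c : ℝ), (∀ i ∈ l, ⟪u, v i⟫_ℝ ≤ 0) →
      0 ≤ ⟪u, x⟫_ℝ + (l.map fun i => ⟪u, v i⟫_ℝ).sum → ⟪u, x⟫_ℝ ≤ c →
      GoodList (fun i => proj u (v i)) B' (proj u x) l → GoodList v (c ^ 2 + B') x l := by
  intro l
  induction l with
  | nil =>
    intro x c _ h0 hc hg
    simp only [List.map_nil, List.sum_nil, add_zero] at h0
    have := norm_sq_decomp hu x
    change ‖x‖ ^ 2 ≤ c ^ 2 + B'
    have hg' : ‖proj u x‖ ^ 2 ≤ B' := hg
    nlinarith
  | cons i l ih =>
    intro x c hneg h0 hc hg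
    have hnonpos : (l.map fun i => ⟪u, v i⟫_ℝ).sum ≤ 0 :=
      list_sum_nonpos l _ (fun b hb => hneg b (List.mem_cons_of_mem _ hb))
    have hi : ⟪u, v i⟫_ℝ ≤ 0 := hneg i List.mem_cons_self
    have hsum : (List.map (fun i => ⟪u, v i⟫_ℝ) (i :: l)).sum
        = ⟪u, v i⟫_ℝ + (l.map fun i => ⟪u, v i⟫_ℝ).sum := by simp
    rw [hsum] at h0
    have hxnn : 0 ≤ ⟪u, x⟫_ℝ := by linarith
    refine ⟨?_, ?_⟩
    · have := norm_sq_decomp hu x
      have hg' : ‖proj u x‖ ^ 2 ≤ B' := hg.1
      nlinarith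
    · apply ih (x + v i) c (fun j hj => hneg j (List.mem_cons_of_mem _ hj))
      · rw [inner_add_right]; linarith
      · rw [inner_add_right]; linarith
      · rw [proj_add]; exact hg.2

/-- Lifting along a direction in which all steps are nonnegative. -/
lemma lift_pos {u : E} (hu : ‖u‖ = 1) {v : ι → E} {B' : ℝ} :
    ∀ (l : List ι) (x : E) (c : ℝ), (∀ i ∈ l, 0 ≤ ⟪u, v i⟫_ℝ) →
      0 ≤ ⟪u, x⟫_ℝ → ⟪u, x⟫_ℝ + (l.map fun i => ⟪u, v i⟫_ℝ).sum ≤ c →
      GoodList (fun i => proj u (v i)) B' (proj u x) l → GoodList v (c ^ 2 + B') x l := by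
  intro l
  induction l with
  | nil =>
    intro x c _ h0 hc hg
    simp only [List.map_nil, List.sum_nil, add_zero] at hc
    have := norm_sq_decomp hu x
    change ‖x‖ ^ 2 ≤ c ^ 2 + B'
    have hg' : ‖proj u x‖ ^ 2 ≤ B' := hg
    nlinarith
  | cons i l ih =>
    intro x c hpos h0 hc hg
    have hnonneg : 0 ≤ (l.map fun i => ⟪u, v i⟫_ℝ).sum := by
      apply List.sum_nonneg
      intro a ha
      obtain ⟨b, hb, rfl⟩ := List.mem_map.1 ha
      exact hpos b (List.mem_cons_of_mem _ hb)
    have hi : 0 ≤ ⟪u, v i⟫_ℝ := hpos i List.mem_cons_self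
    have hsum : (List.map (fun i => ⟪u, v i⟫_ℝ) (i :: l)).sum
        = ⟪u, v i⟫_ℝ + (l.map fun i => ⟪u, v i⟫_ℝ).sum := by simp
    rw [hsum] at hc
    refine ⟨?_, ?_⟩
    · have := norm_sq_decomp hu x
      have hg' : ‖proj u x‖ ^ 2 ≤ B' := hg.1
      nlinarith
    · apply ih (x + v i) c (fun j hj => hpos j (List.mem_cons_of_mem _ hj))
      · rw [inner_add_right]; linarith
      · rw [inner_add_right]; linarith
      · rw [proj_add]; exact hg.2

section Good2
variable [DecidableEq ι]

lemma Good.lift_neg {u : E} (hu : ‖u‖ = 1) {v : ι → E} {B' : ℝ} {x : E} {G : Finset ι}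
    (hneg : ∀ i ∈ G, ⟪u, v i⟫_ℝ ≤ 0) (h0 : 0 ≤ ⟪u, x + ∑ i ∈ G, v i⟫_ℝ)
    (hg : Good (fun i => proj u (v i)) B' (proj u x) G) :
    Good v (⟪u, x⟫_ℝ ^ 2 + B') x G := by
  obtain ⟨l, n, e, g⟩ := hg
  refine ⟨l, n, e, Vale.Agent.Lib.P262.lift_neg hu l x _ ?_ ?_ le_rfl g⟩
  · intro i hi
    exact hneg i (by rw [← e]; simpa using hi)
  · have : (l.map fun i => ⟪u, v i⟫_ℝ).sum = ⟪u, ∑ i ∈ G, v i⟫_ℝ := by
      rw [inner_sum, ← e, List.sum_toFinset _ n]
    rw [this, ← inner_add_right]
    exact h0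

lemma Good.lift_pos {u : E} (hu : ‖u‖ = 1) {v : ι → E} {B' : ℝ} {x : E} {G : Finset ι}
    (hpos : ∀ i ∈ G, 0 ≤ ⟪u, v i⟫_ℝ) (h0 : 0 ≤ ⟪u, x⟫_ℝ)
    (hg : Good (fun i => proj u (v i)) B' (proj u x) G) :
    Good v (⟪u, x + ∑ i ∈ G, v i⟫_ℝ ^ 2 + B') x G := by
  obtain ⟨l, n, e, g⟩ := hg
  refine ⟨l, n, e, Vale.Agent.Lib.P262.lift_pos hu l x _ ?_ h0 ?_ g⟩
  · intro i hi
    exact hpos i (by rw [← e]; simpa using hi)
  · have : (l.map fun i => ⟪u, v i⟫_ℝ).sum = ⟪u, ∑ i ∈ G, v i⟫_ℝ := by
      rw [inner_sum, ← e, List.sum_toFinset _ n]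
    rw [this, ← inner_add_right]

end Good2

/-! ### Rounding -/

lemma rounding [DecidableEq ι] (v : ι → E) (t : ι → ℝ) (Fl : Finset ι) :
    (∀ i ∈ Fl, 0 ≤ t i ∧ t i ≤ 1) → ∀ a : E, ∃ S, S ⊆ Fl ∧
      ‖a + ∑ i ∈ S, v i - ∑ i ∈ Fl, t i • v i‖ ^ 2
        ≤ ‖a‖ ^ 2 + ∑ i ∈ Fl, t i * (1 - t i) * ‖v i‖ ^ 2 := by
  induction Fl using Finset.induction_on with
  | empty =>
    intro _ a
    exact ⟨∅, subset_rfl, by simp⟩
  | insert i Fl hi ih =>
    intro ht a
    have hFl : ∀ j ∈ Fl, 0 ≤ t j ∧ t j ≤ 1 := fun j hj => ht j (Finset.mem_insert_of_mem hj)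
    obtain ⟨h0, h1⟩ := ht i (Finset.mem_insert_self _ _)
    set a0 := a - t i • v i with ha0
    set a1 := a + (1 - t i) • v i with ha1
    have key : (1 - t i) * ‖a0‖ ^ 2 + t i * ‖a1‖ ^ 2
        = ‖a‖ ^ 2 + t i * (1 - t i) * ‖v i‖ ^ 2 := by
      rw [ha0, ha1, norm_sub_sq_real, norm_add_sq_real, inner_smul_right, inner_smul_right,
        norm_smul, norm_smul, Real.norm_eq_abs, Real.norm_eq_abs, mul_pow, mul_pow, sq_abs, sq_abs]
      ring
    rw [Finset.sum_insert hi, Finset.sum_insert hi]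
    by_cases hcase : ‖a0‖ ^ 2 ≤ ‖a‖ ^ 2 + t i * (1 - t i) * ‖v i‖ ^ 2
    · obtain ⟨S, hS, hb⟩ := ih hFl a0
      refine ⟨S, hS.trans (Finset.subset_insert _ _), ?_⟩
      have he : a + ∑ j ∈ S, v j - (t i • v i + ∑ j ∈ Fl, t j • v j)
          = a0 + ∑ j ∈ S, v j - ∑ j ∈ Fl, t j • v j := by
        rw [ha0]; abel
      rw [he]
      linarith
    · have h1' : ‖a1‖ ^ 2 ≤ ‖a‖ ^ 2 + t i * (1 - t i) * ‖v i‖ ^ 2 := by
        by_contra hc
        push Not at hcase hc
        have hA : (1 - t i) * ‖a0‖ ^ 2 ≥ (1 - t i) * (‖a‖ ^ 2 + t i * (1 - t i) * ‖v i‖ ^ 2) :=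
          mul_le_mul_of_nonneg_left hcase.le (by linarith)
        have hB : t i * ‖a1‖ ^ 2 ≥ t i * (‖a‖ ^ 2 + t i * (1 - t i) * ‖v i‖ ^ 2) :=
          mul_le_mul_of_nonneg_left hc.le h0
        have hC : (1 - t i) * ‖a0‖ ^ 2 + t i * ‖a1‖ ^ 2 > ‖a‖ ^ 2 + t i * (1 - t i) * ‖v i‖ ^ 2 := by
          rcases lt_or_eq_of_le h0 with h0' | h0'
          · have := mul_lt_mul_of_pos_left hc h0'
            nlinarith
          · have h1'' : 0 < 1 - t i := by rw [← h0']; norm_num
            have := mul_lt_mul_of_pos_left hcase h1''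
            nlinarith
        linarith
      obtain ⟨S, hS, hb⟩ := ih hFl a1
      have hiS : i ∉ S := fun h => hi (hS h)
      refine ⟨insert i S, Finset.insert_subset_insert _ hS, ?_⟩
      rw [Finset.sum_insert hiS]
      have he : a + (v i + ∑ j ∈ S, v j) - (t i • v i + ∑ j ∈ Fl, t j • v j)
          = a1 + ∑ j ∈ S, v j - ∑ j ∈ Fl, t j • v j := by
        rw [ha1, sub_smul, one_smul]; abel
      rw [he]
      linarith

lemma rounding_bound [DecidableEq ι] (v : ι → E) (t : ι → ℝ) (Fl : Finset ι)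
    (ht : ∀ i ∈ Fl, 0 ≤ t i ∧ t i ≤ 1) (hv : ∀ i ∈ Fl, ‖v i‖ ≤ 1) :
    ∃ S, S ⊆ Fl ∧ ‖∑ i ∈ S, v i - ∑ i ∈ Fl, t i • v i‖ ^ 2 ≤ (Fl.card : ℝ) / 4 := by
  obtain ⟨S, hS, hb⟩ := rounding v t Fl ht 0
  refine ⟨S, hS, ?_⟩
  have h1 : ∑ i ∈ Fl, t i * (1 - t i) * ‖v i‖ ^ 2 ≤ ∑ _i ∈ Fl, (1 / 4 : ℝ) := by
    apply Finset.sum_le_sum
    intro i hi
    obtain ⟨h0, h1⟩ := ht i hi
    have h2 : ‖v i‖ ^ 2 ≤ 1 := by
      have := hv i hi
      have h3 := norm_nonneg (v i)
      nlinarith
    have h3 : t i * (1 - t i) ≤ 1 / 4 := by nlinarith [sq_nonneg (t i - 1 / 2)]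
    have h4 : 0 ≤ t i * (1 - t i) := mul_nonneg h0 (by linarith)
    have h5 := sq_nonneg ‖v i‖
    nlinarith
  rw [Finset.sum_const, nsmul_eq_mul] at h1
  simp only [zero_add, norm_zero, ne_eq, OfNat.ofNat_ne_zero, not_false_eq_true, zero_pow] at hb
  calc _ ≤ _ := hb
    _ ≤ _ := h1
    _ = _ := by ring

/-! ### Minimizer with a linearly independent set of fractional coordinates -/

section Min
variable [Fintype ι] [DecidableEq ι]

lemma exists_min_vertex (G : Finset ι) (v : ι → E) (x : E) :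
    ∃ t : ι → ℝ, (∀ i, 0 ≤ t i ∧ t i ≤ 1) ∧
      (∀ t' : ι → ℝ, (∀ i, 0 ≤ t' i ∧ t' i ≤ 1) →
        ‖x + ∑ i ∈ G, t i • v i‖ ^ 2 ≤ ‖x + ∑ i ∈ G, t' i • v i‖ ^ 2) ∧
      LinearIndependent ℝ (fun i : {i // i ∈ G ∧ 0 < t i ∧ t i < 1} => v i) := by
  classical
  have hcomp : IsCompact (Set.Icc (0 : ι → ℝ) 1) := isCompact_Icc
  have hne : (Set.Icc (0 : ι → ℝ) 1).Nonempty := ⟨0, by simp [Set.mem_Icc]⟩
  have hcont : Continuous fun t : ι → ℝ => ‖x + ∑ i ∈ G, t i • v i‖ ^ 2 := by
    fun_prop
  obtain ⟨t₀, ht₀, hmin₀⟩ := hcomp.exists_isMinOn hne hcont.continuousOn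
  have hcont2 : Continuous fun t : ι → ℝ => ∑ i ∈ G, t i • v i := by fun_prop
  set K : Set (ι → ℝ) := Set.Icc (0 : ι → ℝ) 1 ∩ {t | ∑ i ∈ G, t i • v i = ∑ i ∈ G, t₀ i • v i}
    with hK
  have hKcomp : IsCompact K :=
    hcomp.inter_right (isClosed_eq hcont2 continuous_const)
  have hKne : K.Nonempty := ⟨t₀, ht₀, rfl⟩
  obtain ⟨t, htext⟩ := hKcomp.extremePoints_nonempty hKne
  have htK : t ∈ K := htext.1
  have htbox : ∀ i, 0 ≤ t i ∧ t i ≤ 1 := by
    intro i
    have := htK.1
    exact ⟨this.1 i, this.2 i⟩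
  refine ⟨t, htbox, ?_, ?_⟩
  · intro t' ht'
    have h1 : t' ∈ Set.Icc (0 : ι → ℝ) 1 := ⟨fun i => (ht' i).1, fun i => (ht' i).2⟩
    have h2 := hmin₀ h1
    simp only [Set.mem_ofPred_eq] at h2
    have h3 : ∑ i ∈ G, t i • v i = ∑ i ∈ G, t₀ i • v i := htK.2
    rw [h3]
    exact h2
  · by_contra hnot
    rw [Fintype.not_linearIndependent_iff] at hnot
    obtain ⟨g, hg0, ⟨i₀, hi₀⟩⟩ := hnot
    -- extend `g` by zero
    set c : ι → ℝ := fun i => if h : i ∈ G ∧ 0 < t i ∧ t i < 1 then g ⟨i, h⟩ else 0 with hc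
    have hcsum : ∑ i ∈ G, c i • v i = 0 := by
      have h1 : ∑ i ∈ G, c i • v i = ∑ i ∈ G.filter (fun i => 0 < t i ∧ t i < 1), c i • v i := by
        symm
        apply Finset.sum_subset (Finset.filter_subset _ _)
        intro i hi hi'
        have : ¬ (i ∈ G ∧ 0 < t i ∧ t i < 1) := by
          intro h
          exact hi' (Finset.mem_filter.2 ⟨h.1, h.2⟩)
        simp [hc, this]
      rw [h1, ← hg0]
      symm
      have h2 : ∑ x : {i // i ∈ G ∧ 0 < t i ∧ t i < 1}, g x • v x.1
          = ∑ x : {i // i ∈ G ∧ 0 < t i ∧ t i < 1}, c x.1 • v x.1 := by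
        apply Finset.sum_congr rfl
        intro x _
        have : x.1 ∈ G ∧ 0 < t x.1 ∧ t x.1 < 1 := x.2
        simp [hc, this]
      rw [h2]
      have h3 : (Finset.univ.filter fun i => i ∈ G ∧ 0 < t i ∧ t i < 1)
          = G.filter (fun i => 0 < t i ∧ t i < 1) := by
        ext i; simp
      rw [← h3]
      rw [Finset.sum_subtype (p := fun i => i ∈ G ∧ 0 < t i ∧ t i < 1) _ (by intro i; simp)]
    have hcne : c i₀.1 ≠ 0 := by
      have : i₀.1 ∈ G ∧ 0 < t i₀.1 ∧ t i₀.1 < 1 := i₀.2
      simp only [hc, this, and_self, dite_true]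
      exact hi₀
    -- the step size
    have hιne : (Finset.univ : Finset ι).Nonempty := ⟨i₀.1, Finset.mem_univ _⟩
    set φ : ι → ℝ := fun i =>
      (if i ∈ G ∧ 0 < t i ∧ t i < 1 then min (t i) (1 - t i) else 1) / (|c i| + 1) with hφ
    have hφpos : ∀ i, 0 < φ i := by
      intro i
      apply div_pos _ (by positivity)
      split_ifs with h
      · exact lt_min h.2.1 (by linarith [h.2.2])
      · norm_num
    obtain ⟨i₁, -, hi₁⟩ := Finset.exists_min_image Finset.univ φ hιne
    set ε := φ i₁ with hε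
    have hεpos : 0 < ε := hφpos i₁
    have hstep : ∀ i, 0 ≤ t i + ε * c i ∧ t i + ε * c i ≤ 1 ∧
        0 ≤ t i - ε * c i ∧ t i - ε * c i ≤ 1 := by
      intro i
      have hle : ε ≤ φ i := hi₁ i (Finset.mem_univ _)
      by_cases h : i ∈ G ∧ 0 < t i ∧ t i < 1
      · have hφi : φ i = min (t i) (1 - t i) / (|c i| + 1) := by simp [hφ, h]
        have hm1 : min (t i) (1 - t i) ≤ t i := min_le_left _ _
        have hm2 : min (t i) (1 - t i) ≤ 1 - t i := min_le_right _ _
        have hm0 : 0 < min (t i) (1 - t i) := lt_min h.2.1 (by linarith [h.2.2])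
        have habs : ε * |c i| ≤ min (t i) (1 - t i) := by
          calc ε * |c i| ≤ φ i * |c i| := by gcongr
            _ = min (t i) (1 - t i) * (|c i| / (|c i| + 1)) := by rw [hφi]; ring
            _ ≤ min (t i) (1 - t i) * 1 := by
                gcongr
                rw [div_le_one (by positivity)]
                linarith
            _ = _ := mul_one _
        have h1 : -(ε * |c i|) ≤ ε * c i := by
          have := neg_abs_le (c i)
          nlinarith
        have h2 : ε * c i ≤ ε * |c i| := by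
          have := le_abs_self (c i)
          nlinarith
        refine ⟨by linarith, by linarith, by linarith, by linarith⟩
      · have : c i = 0 := by simp [hc, h]
        rw [this]
        have := htbox i
        simp only [mul_zero, add_zero, sub_zero]
        exact ⟨this.1, this.2, this.1, this.2⟩
    set tp : ι → ℝ := fun i => t i + ε * c i with htp
    set tm : ι → ℝ := fun i => t i - ε * c i with htm
    have hsump : ∑ i ∈ G, tp i • v i = ∑ i ∈ G, t₀ i • v i := by
      have h3 : ∑ i ∈ G, t i • v i = ∑ i ∈ G, t₀ i • v i := htK.2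
      rw [← h3]
      have : ∀ i, tp i • v i = t i • v i + ε • (c i • v i) := by
        intro i; simp only [htp, add_smul, mul_smul]
      simp only [this, Finset.sum_add_distrib, ← Finset.smul_sum, hcsum, smul_zero, add_zero]
    have hsumm : ∑ i ∈ G, tm i • v i = ∑ i ∈ G, t₀ i • v i := by
      have h3 : ∑ i ∈ G, t i • v i = ∑ i ∈ G, t₀ i • v i := htK.2
      rw [← h3]
      have : ∀ i, tm i • v i = t i • v i - ε • (c i • v i) := by
        intro i; simp only [htm, sub_smul, mul_smul]
      simp only [this, Finset.sum_sub_distrib, ← Finset.smul_sum, hcsum, smul_zero, sub_zero]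
    have htpK : tp ∈ K := ⟨⟨fun i => (hstep i).1, fun i => (hstep i).2.1⟩, hsump⟩
    have htmK : tm ∈ K := ⟨⟨fun i => (hstep i).2.2.1, fun i => (hstep i).2.2.2⟩, hsumm⟩
    have hseg : t ∈ openSegment ℝ tp tm := by
      refine ⟨1 / 2, 1 / 2, by norm_num, by norm_num, by norm_num, ?_⟩
      ext i
      simp only [Pi.add_apply, Pi.smul_apply, smul_eq_mul, htp, htm]
      ring
    have heq := (mem_extremePoints_iff_left.1 htext).2 tp htpK tm htmK hseg
    have h0 : ε * c i₀.1 = 0 := by
      have := congrFun heq i₀.1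
      simp only [htp] at this
      linarith
    rcases mul_eq_zero.1 h0 with h | h
    · exact hεpos.ne' h
    · exact hcne h

/-- Moving one coordinate inside the box cannot decrease the squared norm at a minimizer. -/
lemma kkt_aux (G : Finset ι) (v : ι → E) (x : E) (t : ι → ℝ)
    (hbox : ∀ i, 0 ≤ t i ∧ t i ≤ 1)
    (hmin : ∀ t' : ι → ℝ, (∀ i, 0 ≤ t' i ∧ t' i ≤ 1) →
        ‖x + ∑ i ∈ G, t i • v i‖ ^ 2 ≤ ‖x + ∑ i ∈ G, t' i • v i‖ ^ 2)
    (i : ι) (hi : i ∈ G) (s : ℝ) (hs : 0 ≤ t i + s) (hs' : t i + s ≤ 1) :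
    0 ≤ 2 * s * ⟪x + ∑ j ∈ G, t j • v j, v i⟫_ℝ + s ^ 2 * ‖v i‖ ^ 2 := by
  set t' : ι → ℝ := Function.update t i (t i + s) with ht'
  have hbox' : ∀ j, 0 ≤ t' j ∧ t' j ≤ 1 := by
    intro j
    by_cases hj : j = i
    · subst hj; simp [ht', hs, hs']
    · simp only [ht', Function.update_of_ne hj]; exact hbox j
  have hsum : ∑ j ∈ G, t' j • v j = ∑ j ∈ G, t j • v j + s • v i := by
    rw [← Finset.add_sum_erase G _ hi, ← Finset.add_sum_erase G (fun j => t j • v j) hi]
    have : ∑ j ∈ G.erase i, t' j • v j = ∑ j ∈ G.erase i, t j • v j := by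
      apply Finset.sum_congr rfl
      intro j hj
      have hj' : j ≠ i := (Finset.mem_erase.1 hj).1
      simp only [ht', Function.update_of_ne hj']
    rw [this]
    simp only [ht', Function.update_self, add_smul]
    abel
  have h1 := hmin t' hbox'
  rw [hsum, ← add_assoc] at h1
  have h2 : ‖x + ∑ j ∈ G, t j • v j + s • v i‖ ^ 2 = ‖x + ∑ j ∈ G, t j • v j‖ ^ 2
      + 2 * (s * ⟪x + ∑ j ∈ G, t j • v j, v i⟫_ℝ) + s ^ 2 * ‖v i‖ ^ 2 := by
    rw [norm_add_sq_real, inner_smul_right, norm_smul, Real.norm_eq_abs, mul_pow, sq_abs]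
  rw [h2] at h1
  linarith

lemma kkt_up (G : Finset ι) (v : ι → E) (x : E) (t : ι → ℝ)
    (hbox : ∀ i, 0 ≤ t i ∧ t i ≤ 1)
    (hmin : ∀ t' : ι → ℝ, (∀ i, 0 ≤ t' i ∧ t' i ≤ 1) →
        ‖x + ∑ i ∈ G, t i • v i‖ ^ 2 ≤ ‖x + ∑ i ∈ G, t' i • v i‖ ^ 2)
    (i : ι) (hi : i ∈ G) (ht : t i < 1) :
    0 ≤ ⟪x + ∑ j ∈ G, t j • v j, v i⟫_ℝ := by
  by_contra hneg
  push Not at hneg
  set a := ⟪x + ∑ j ∈ G, t j • v j, v i⟫_ℝ with ha
  set w := ‖v i‖ ^ 2 with hw
  have hw0 : 0 ≤ w := sq_nonneg _
  set s := min (1 - t i) (-a / (w + 1)) with hs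
  have hs0 : 0 < s := lt_min (by linarith) (div_pos (by linarith) (by linarith))
  have hs1 : s ≤ 1 - t i := min_le_left _ _
  have hs2 : s ≤ -a / (w + 1) := min_le_right _ _
  have h := kkt_aux G v x t hbox hmin i hi s (by linarith [(hbox i).1]) (by linarith)
  rw [← ha, ← hw] at h
  have h3 : s * (w + 1) ≤ -a := by
    rw [le_div_iff₀ (by linarith)] at hs2
    exact hs2
  have h4 : 0 ≤ s * (2 * a + s * w) := by nlinarith
  have h5 : 0 ≤ 2 * a + s * w := nonneg_of_mul_nonneg_right h4 hs0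
  nlinarith

lemma kkt_down (G : Finset ι) (v : ι → E) (x : E) (t : ι → ℝ)
    (hbox : ∀ i, 0 ≤ t i ∧ t i ≤ 1)
    (hmin : ∀ t' : ι → ℝ, (∀ i, 0 ≤ t' i ∧ t' i ≤ 1) →
        ‖x + ∑ i ∈ G, t i • v i‖ ^ 2 ≤ ‖x + ∑ i ∈ G, t' i • v i‖ ^ 2)
    (i : ι) (hi : i ∈ G) (ht : 0 < t i) :
    ⟪x + ∑ j ∈ G, t j • v j, v i⟫_ℝ ≤ 0 := by
  by_contra hpos
  push Not at hpos
  set a := ⟪x + ∑ j ∈ G, t j • v j, v i⟫_ℝ with ha
  set w := ‖v i‖ ^ 2 with hw
  have hw0 : 0 ≤ w := sq_nonneg _
  set s := min (t i) (a / (w + 1)) with hs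
  have hs0 : 0 < s := lt_min ht (div_pos hpos (by linarith))
  have hs1 : s ≤ t i := min_le_left _ _
  have hs2 : s ≤ a / (w + 1) := min_le_right _ _
  have h := kkt_aux G v x t hbox hmin i hi (-s) (by linarith) (by linarith [(hbox i).2])
  rw [← ha, ← hw] at h
  have h3 : s * (w + 1) ≤ a := by
    rw [le_div_iff₀ (by linarith)] at hs2
    exact hs2
  have h4 : 0 ≤ s * (-2 * a + s * w) := by nlinarith
  have h5 : 0 ≤ -2 * a + s * w := nonneg_of_mul_nonneg_right h4 hs0
  nlinarith

end Min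

/-- Splitting the weighted sum according to the integral and fractional coordinates. -/
lemma split_sum [DecidableEq ι] (G : Finset ι) (v : ι → E) (t : ι → ℝ)
    (hbox : ∀ i, 0 ≤ t i ∧ t i ≤ 1) :
    ∑ i ∈ G, t i • v i = ∑ i ∈ G.filter (fun i => t i = 1), v i
      + ∑ i ∈ G.filter (fun i => 0 < t i ∧ t i < 1), t i • v i := by
  rw [← Finset.sum_filter_add_sum_filter_not G (fun i => t i = 1)]
  congr 1
  · apply Finset.sum_congr rfl
    intro i hi
    rw [(Finset.mem_filter.1 hi).2, one_smul]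
  · symm
    apply Finset.sum_subset
    · intro i hi
      obtain ⟨h1, h2, h3⟩ := Finset.mem_filter.1 hi
      exact Finset.mem_filter.2 ⟨h1, h3.ne⟩
    · intro i hi hi'
      obtain ⟨h1, h2⟩ := Finset.mem_filter.1 hi
      have h3 : ¬ (0 < t i ∧ t i < 1) := fun h => hi' (Finset.mem_filter.2 ⟨h1, h⟩)
      have h4 : t i < 1 := lt_of_le_of_ne (hbox i).2 h2
      have h5 : t i = 0 := by
        by_contra h6
        exact h3 ⟨lt_of_le_of_ne (hbox i).1 (Ne.symm h6), h4⟩
      rw [h5, zero_smul]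

/-! ### Constants -/

/-- The cost of one level: `j / 4 + 1` for `j ≥ 1`, and `0` for `j = 0`. -/
noncomputable def cst (j : ℕ) : ℝ := if j = 0 then 0 else (j : ℝ) / 4 + 1

/-- The accumulated cost. -/
noncomputable def tot (j : ℕ) : ℝ := ∑ i ∈ range j, cst i

lemma cst_nonneg (j : ℕ) : 0 ≤ cst j := by
  unfold cst
  split_ifs
  · exact le_rfl
  · positivity

lemma le_cst (j : ℕ) : (j : ℝ) / 4 ≤ cst j := by
  unfold cst
  split_ifs with h
  · simp [h]
  · linarith

lemma tot_nonneg (j : ℕ) : 0 ≤ tot j := Finset.sum_nonneg fun i _ => cst_nonneg i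

lemma tot_mono {a b : ℕ} (h : a ≤ b) : tot a ≤ tot b := by
  apply Finset.sum_le_sum_of_subset_of_nonneg
  · exact Finset.range_subset_range.2 h
  · intro i _ _
    exact cst_nonneg i

lemma tot_succ (j : ℕ) : tot (j + 1) = tot j + cst j := Finset.sum_range_succ _ _

lemma tot_step {a b : ℕ} (h : a < b) : tot a + cst a ≤ tot b := by
  rw [← tot_succ]
  exact tot_mono h

lemma tot_closed (d : ℕ) : tot (d + 1) = (d : ℝ) * (d + 9) / 8 := by
  induction d with
  | zero => simp [tot, cst]
  | succ n ih =>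
    rw [tot_succ, ih]
    have : cst (n + 1) = ((n : ℝ) + 1) / 4 + 1 := by
      simp [cst]
    rw [this]
    push_cast
    ring

/-! ### Card of an independent family -/

lemma card_le_finrank [Fintype ι] [DecidableEq ι] [FiniteDimensional ℝ E] {G : Finset ι} {v : ι → E}
    {t : ι → ℝ} (W : Submodule ℝ E)
    (hind : LinearIndependent ℝ (fun i : {i // i ∈ G ∧ 0 < t i ∧ t i < 1} => v i))
    (hW : ∀ i ∈ G.filter (fun i => 0 < t i ∧ t i < 1), v i ∈ W) :
    (G.filter (fun i => 0 < t i ∧ t i < 1)).card ≤ Module.finrank ℝ W := by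
  classical
  let f : {i // i ∈ G ∧ 0 < t i ∧ t i < 1} → W := fun i =>
    ⟨v i.1, hW i.1 (Finset.mem_filter.2 ⟨i.2.1, i.2.2⟩)⟩
  have hf : LinearIndependent ℝ f := by
    apply LinearIndependent.of_comp W.subtype
    exact hind
  have h1 := hf.fintype_card_le_finrank
  have h2 : Fintype.card {i // i ∈ G ∧ 0 < t i ∧ t i < 1}
      = (G.filter (fun i => 0 < t i ∧ t i < 1)).card :=
    Fintype.card_of_subtype _ (by intro i; simp)
  rwa [h2] at h1

/-! ### The main induction -/

section Main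
variable [Fintype ι] [DecidableEq ι] [FiniteDimensional ℝ E]

theorem node (j : ℕ) : ∀ (W : Submodule ℝ E), Module.finrank ℝ W ≤ j → ∀ (n : ℕ) (G : Finset ι),
    G.card ≤ n → ∀ (v : ι → E) (x : E), x ∈ W → (∀ i ∈ G, v i ∈ W) → (∀ i ∈ G, ‖v i‖ ≤ 1) →
    Good v (max (max (‖x‖ ^ 2) (‖x + ∑ i ∈ G, v i‖ ^ 2)) (cst j) + tot j) x G := by
  induction j using Nat.strong_induction_on with
  | _ j IHj =>
  intro W hW n
  induction n with
  | zero =>
    intro G hG v x _ _ _
    have hG' : G = ∅ := Finset.card_eq_zero.1 (Nat.le_zero.1 hG)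
    subst hG'
    apply good_empty
    have h1 := le_max_left (max (‖x‖ ^ 2) (‖x + ∑ i ∈ (∅ : Finset ι), v i‖ ^ 2)) (cst j)
    have h2 := le_max_left (‖x‖ ^ 2) (‖x + ∑ i ∈ (∅ : Finset ι), v i‖ ^ 2)
    have h3 := tot_nonneg j
    linarith
  | succ n IHn =>
    intro G hG v x hx hvW hv1
    set y := x + ∑ i ∈ G, v i with hy
    set B := max (max (‖x‖ ^ 2) (‖y‖ ^ 2)) (cst j) + tot j with hB
    have hBx : ‖x‖ ^ 2 ≤ B := by
      have h1 := le_max_left (max (‖x‖ ^ 2) (‖y‖ ^ 2)) (cst j)
      have h2 := le_max_left (‖x‖ ^ 2) (‖y‖ ^ 2)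
      have h3 := tot_nonneg j
      linarith
    have hBy : ‖y‖ ^ 2 ≤ B := by
      have h1 := le_max_left (max (‖x‖ ^ 2) (‖y‖ ^ 2)) (cst j)
      have h2 := le_max_right (‖x‖ ^ 2) (‖y‖ ^ 2)
      have h3 := tot_nonneg j
      linarith
    -- small families
    by_cases hsmall : G.card ≤ 1
    · have hcases : G.card = 0 ∨ G.card = 1 := by omega
      rcases hcases with h0 | h1
      · have hG0 : G = ∅ := Finset.card_eq_zero.1 h0
        subst hG0
        exact good_empty hBx
      · obtain ⟨i, rfl⟩ := Finset.card_eq_one.1 h1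
        apply good_singleton hBx
        simpa [hy] using hBy
    · have hcard2 : 2 ≤ G.card := by omega
      obtain ⟨t, hbox, hmin, hind⟩ := exists_min_vertex G v x
      set q := x + ∑ i ∈ G, t i • v i with hq
      have hqW : q ∈ W := W.add_mem hx (W.sum_mem fun i hi => W.smul_mem _ (hvW i hi))
      have hup : ∀ i ∈ G, t i < 1 → 0 ≤ ⟪q, v i⟫_ℝ :=
        fun i hi h => kkt_up G v x t hbox hmin i hi h
      have hdown : ∀ i ∈ G, 0 < t i → ⟪q, v i⟫_ℝ ≤ 0 :=
        fun i hi h => kkt_down G v x t hbox hmin i hi h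
      set Fl := G.filter (fun i => 0 < t i ∧ t i < 1) with hFl
      set I1 := G.filter (fun i => t i = 1) with hI1
      have hFlG : Fl ⊆ G := Finset.filter_subset _ _
      have hI1G : I1 ⊆ G := Finset.filter_subset _ _
      have hFlzero : ∀ i ∈ Fl, ⟪q, v i⟫_ℝ = 0 := by
        intro i hi
        obtain ⟨h1, h2, h3⟩ := Finset.mem_filter.1 hi
        exact le_antisymm (hdown i h1 h2) (hup i h1 h3)
      have hFlbox : ∀ i ∈ Fl, 0 ≤ t i ∧ t i ≤ 1 := fun i _ => hbox i
      have hFlv : ∀ i ∈ Fl, ‖v i‖ ≤ 1 := fun i hi => hv1 i (hFlG hi)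
      obtain ⟨S, hSFl, hSb⟩ := rounding_bound v t Fl hFlbox hFlv
      set e := ∑ i ∈ S, v i - ∑ i ∈ Fl, t i • v i with he
      set G₁ := I1 ∪ S with hG₁
      have hdisj : Disjoint I1 S := by
        rw [Finset.disjoint_left]
        intro i hi1 hi2
        have h1 : t i = 1 := (Finset.mem_filter.1 hi1).2
        have h2 : t i < 1 := (Finset.mem_filter.1 (hSFl hi2)).2.2
        linarith
      have hG₁sub : G₁ ⊆ G := Finset.union_subset hI1G (hSFl.trans hFlG)
      have hmid : x + ∑ i ∈ G₁, v i = q + e := by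
        rw [hG₁, Finset.sum_union hdisj, hq, split_sum G v t hbox, he]
        abel
      have hG₁neg : ∀ i ∈ G₁, ⟪q, v i⟫_ℝ ≤ 0 := by
        intro i hi
        rcases Finset.mem_union.1 hi with h | h
        · obtain ⟨h1, h2⟩ := Finset.mem_filter.1 h
          exact hdown i h1 (by rw [h2]; norm_num)
        · exact (hFlzero i (hSFl h)).le
      have hG₂pos : ∀ i ∈ G \ G₁, 0 ≤ ⟪q, v i⟫_ℝ := by
        intro i hi
        obtain ⟨h1, h2⟩ := Finset.mem_sdiff.1 hi
        have h3 : t i ≠ 1 := by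
          intro h
          exact h2 (Finset.mem_union_left _ (Finset.mem_filter.2 ⟨h1, h⟩))
        exact hup i h1 (lt_of_le_of_ne (hbox i).2 h3)
      have hsplit : q + e + ∑ i ∈ G \ G₁, v i = y := by
        rw [← hmid, hy, add_assoc]
        congr 1
        rw [add_comm]
        exact Finset.sum_sdiff hG₁sub
      have hemem : e ∈ W := by
        have h1 : q + e ∈ W := by
          rw [← hmid]
          exact W.add_mem hx (W.sum_mem fun i hi => hvW i (hG₁sub hi))
        have h2 := W.sub_mem h1 hqW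
        simpa using h2
      by_cases hq0 : q = 0
      · -- the origin is reachable
        have hFlW : ∀ i ∈ Fl, v i ∈ W := fun i hi => hvW i (hFlG hi)
        have hcardW : Fl.card ≤ Module.finrank ℝ W := card_le_finrank W hind hFlW
        have hej : ‖e‖ ^ 2 ≤ (j : ℝ) / 4 := by
          have h1 : (Fl.card : ℝ) ≤ j := by exact_mod_cast hcardW.trans hW
          linarith
        have hvc : ∀ i ∈ G, (j : ℝ) / 4 + ‖v i‖ ^ 2 ≤ cst j := by
          intro i hi
          by_cases hj0 : j = 0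
          · have hW0 : W = ⊥ := by
              have : Module.finrank ℝ W = 0 := by omega
              exact Submodule.finrank_eq_zero.1 this
            have hvi : v i = 0 := by
              have := hvW i hi
              rw [hW0] at this
              simpa using this
            simp [hvi, hj0, cst]
          · have h1 : cst j = (j : ℝ) / 4 + 1 := by simp [cst, hj0]
            have h2 := hv1 i hi
            have h3 := norm_nonneg (v i)
            rw [h1]
            nlinarith
        have hmax3 : ∀ a b d c : ℝ, b ≤ c → max (max a b) c ≤ max (max a d) c := by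
          intro a b d c hb
          exact max_le (max_le (le_trans (le_max_left _ _) (le_max_left _ _))
            (le_trans hb (le_max_right _ _))) (le_max_right _ _)
        have hmax3' : ∀ a b d c : ℝ, b ≤ c → max (max b d) c ≤ max (max a d) c := by
          intro a b d c hb
          exact max_le (max_le (le_trans hb (le_max_right _ _))
            (le_trans (le_max_right _ _) (le_max_left _ _))) (le_max_right _ _)
        have key : ∀ G' : Finset ι, G' ⊆ G → G'.Nonempty → (G \ G').Nonempty →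
            ‖x + ∑ i ∈ G', v i‖ ^ 2 ≤ cst j → Good v B x G := by
          intro G' hsub hne hne' hb
          set m := x + ∑ i ∈ G', v i with hm
          have hmW : m ∈ W := W.add_mem hx (W.sum_mem fun i hi => hvW i (hsub hi))
          have hcard1 : G'.card ≤ n := by
            have hss : G' ⊂ G := by
              refine Finset.ssubset_iff_subset_ne.2 ⟨hsub, ?_⟩
              rintro rfl
              simp at hne'
            have := Finset.card_lt_card hss
            omega
          have hcard2' : (G \ G').card ≤ n := by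
            have h1 := Finset.card_sdiff_add_card_eq_card hsub
            have h2 := Finset.card_pos.2 hne
            omega
          have h1 := IHn G' hcard1 v x hx (fun i hi => hvW i (hsub hi)) (fun i hi => hv1 i (hsub hi))
          rw [← hm] at h1
          have h1' : Good v B x G' := h1.mono (by
            rw [hB]
            have := hmax3 (‖x‖ ^ 2) (‖m‖ ^ 2) (‖y‖ ^ 2) (cst j) hb
            linarith)
          have hsd : m + ∑ i ∈ G \ G', v i = y := by
            rw [hm, hy, add_assoc]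
            congr 1
            rw [add_comm]
            exact Finset.sum_sdiff hsub
          have h2 := IHn (G \ G') hcard2' v m hmW
            (fun i hi => hvW i (Finset.mem_sdiff.1 hi).1) (fun i hi => hv1 i (Finset.mem_sdiff.1 hi).1)
          rw [hsd] at h2
          have h2' : Good v B m (G \ G') := h2.mono (by
            rw [hB]
            have := hmax3' (‖x‖ ^ 2) (‖m‖ ^ 2) (‖y‖ ^ 2) (cst j) hb
            linarith)
          have h3 := Good.union Finset.disjoint_sdiff h1' h2'
          rwa [Finset.union_sdiff_of_subset hsub] at h3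
        have hGne : G.Nonempty := Finset.card_pos.1 (by omega)
        by_cases h1e : G₁ = ∅
        · -- first part empty: `x` itself is small
          have hxe : x = e := by
            have h1 : x + ∑ i ∈ G₁, v i = q + e := hmid
            rw [h1e, Finset.sum_empty, add_zero, hq0, zero_add] at h1
            exact h1
          have hxj : ‖x‖ ^ 2 ≤ (j : ℝ) / 4 := by rw [hxe]; exact hej
          have hex : ∃ i₀ ∈ G, ⟪x, v i₀⟫_ℝ ≤ 0 := by
            by_contra hcon
            push Not at hcon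
            have h1 : ⟪x, q⟫_ℝ = 0 := by rw [hq0, inner_zero_right]
            have h2 : ⟪x, q⟫_ℝ = ‖x‖ ^ 2 + ∑ i ∈ G, t i * ⟪x, v i⟫_ℝ := by
              rw [hq, inner_add_right, real_inner_self_eq_norm_sq, inner_sum]
              congr 1
              apply Finset.sum_congr rfl
              intro i _
              rw [inner_smul_right]
            have h3 : 0 ≤ ∑ i ∈ G, t i * ⟪x, v i⟫_ℝ :=
              Finset.sum_nonneg fun i hi => mul_nonneg (hbox i).1 (hcon i hi).le
            have h4 : ‖x‖ ^ 2 ≤ 0 := by linarith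
            have h5 : x = 0 := by
              have h6 : ‖x‖ = 0 := by nlinarith [norm_nonneg x]
              exact norm_eq_zero.1 h6
            obtain ⟨i, hi⟩ := hGne
            have h7 := hcon i hi
            rw [h5, inner_zero_left] at h7
            exact lt_irrefl _ h7
          obtain ⟨i₀, hi₀, hin⟩ := hex
          apply key {i₀} (Finset.singleton_subset_iff.2 hi₀) (Finset.singleton_nonempty _)
          · have : (G \ {i₀}).card = G.card - 1 := by
              rw [Finset.card_sdiff_of_subset (Finset.singleton_subset_iff.2 hi₀), Finset.card_singleton]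
            exact Finset.card_pos.1 (by omega)
          · rw [Finset.sum_singleton, norm_add_sq_real]
            have := hvc i₀ hi₀
            linarith
        · by_cases h2e : (G \ G₁) = ∅
          · -- second part empty: `y` itself is small
            have hG₁eq : G₁ = G := by
              apply Finset.Subset.antisymm hG₁sub
              exact Finset.sdiff_eq_empty_iff_subset.1 h2e
            have hye : y = e := by
              have h1 : x + ∑ i ∈ G₁, v i = q + e := hmid
              rw [hG₁eq, hq0, zero_add] at h1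
              rw [hy, h1]
            have hyj : ‖y‖ ^ 2 ≤ (j : ℝ) / 4 := by rw [hye]; exact hej
            have hex : ∃ i₀ ∈ G, 0 ≤ ⟪y, v i₀⟫_ℝ := by
              by_contra hcon
              push Not at hcon
              have h1 : ⟪y, q⟫_ℝ = 0 := by rw [hq0, inner_zero_right]
              have h2 : ⟪y, q⟫_ℝ = ‖y‖ ^ 2 - ∑ i ∈ G, (1 - t i) * ⟪y, v i⟫_ℝ := by
                have h3 : q = y - ∑ i ∈ G, (1 - t i) • v i := by
                  rw [hq, hy, add_sub_assoc]
                  congr 1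
                  rw [← Finset.sum_sub_distrib]
                  apply Finset.sum_congr rfl
                  intro i _
                  rw [sub_smul, one_smul]
                  abel
                rw [h3, inner_sub_right, real_inner_self_eq_norm_sq, inner_sum]
                congr 1
                apply Finset.sum_congr rfl
                intro i _
                rw [inner_smul_right]
              have h3 : ∑ i ∈ G, (1 - t i) * ⟪y, v i⟫_ℝ ≤ 0 :=
                Finset.sum_nonpos fun i hi =>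
                  mul_nonpos_of_nonneg_of_nonpos (by linarith [(hbox i).2]) (hcon i hi).le
              have h4 : ‖y‖ ^ 2 ≤ 0 := by linarith
              have h5 : y = 0 := by
                have h6 : ‖y‖ = 0 := by nlinarith [norm_nonneg y]
                exact norm_eq_zero.1 h6
              obtain ⟨i, hi⟩ := hGne
              have h7 := hcon i hi
              rw [h5, inner_zero_left] at h7
              exact lt_irrefl _ h7
            obtain ⟨i₀, hi₀, hin⟩ := hex
            apply key (G.erase i₀) (Finset.erase_subset _ _)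
            · apply Finset.card_pos.1
              rw [Finset.card_erase_of_mem hi₀]
              omega
            · refine ⟨i₀, ?_⟩
              exact Finset.mem_sdiff.2 ⟨hi₀, by simp⟩
            · have h1 : x + ∑ i ∈ G.erase i₀, v i = y - v i₀ := by
                rw [hy, ← Finset.add_sum_erase G v hi₀]
                abel
              rw [h1, norm_sub_sq_real]
              have := hvc i₀ hi₀
              linarith
          · apply key G₁ hG₁sub (Finset.nonempty_iff_ne_empty.2 h1e)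
              (Finset.nonempty_iff_ne_empty.2 h2e)
            rw [hmid, hq0, zero_add]
            have := le_cst j
            linarith
      · -- the origin is not reachable: peel one dimension
        set r := ‖q‖ with hr
        have hrpos : 0 < r := norm_pos_iff.2 hq0
        set u : E := (1 / r) • q with hu
        have hu1 : ‖u‖ = 1 := by
          rw [hu, norm_smul, Real.norm_eq_abs, abs_of_pos (by positivity), ← hr]
          field_simp
        have huW : u ∈ W := W.smul_mem _ hqW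
        have hinn : ∀ z : E, ⟪u, z⟫_ℝ = ⟪q, z⟫_ℝ / r := by
          intro z
          rw [hu, real_inner_smul_left]
          ring
        have hqu : ⟪q, u⟫_ℝ = r := by
          rw [hu, inner_smul_right, real_inner_self_eq_norm_sq, ← hr]
          field_simp
        have huq : ⟪u, q⟫_ℝ = r := by rw [real_inner_comm, hqu]
        set W' : Submodule ℝ E := W ⊓ (ℝ ∙ q)ᗮ with hW'
        have hW'lt : Module.finrank ℝ W' < Module.finrank ℝ W := by
          apply Submodule.finrank_lt_finrank_of_lt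
          refine lt_of_le_of_ne inf_le_left ?_
          intro heq
          have h1 : q ∈ W' := by rw [heq]; exact hqW
          have h2 : q ∈ (ℝ ∙ q)ᗮ := h1.2
          rw [Submodule.mem_orthogonal_singleton_iff_inner_right, real_inner_self_eq_norm_sq] at h2
          have h3 : ‖q‖ = 0 := by nlinarith [norm_nonneg q]
          exact hq0 (norm_eq_zero.1 h3)
        have hperp : ∀ z ∈ W, ⟪q, z⟫_ℝ = 0 → z ∈ W' := by
          intro z hz h
          exact ⟨hz, Submodule.mem_orthogonal_singleton_iff_inner_right.2 h⟩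
        have hprojW' : ∀ z ∈ W, proj u z ∈ W' := by
          intro z hz
          apply hperp _ (W.sub_mem hz (W.smul_mem _ huW))
          rw [inner_sub_right, inner_smul_right, hqu, hinn]
          field_simp
          ring
        have hFlW' : ∀ i ∈ Fl, v i ∈ W' :=
          fun i hi => hperp _ (hvW i (hFlG hi)) (hFlzero i hi)
        have hcardW' : Fl.card ≤ Module.finrank ℝ W' := card_le_finrank W' hind hFlW'
        set j' := Module.finrank ℝ W' with hj'
        have hj'lt : j' < j := lt_of_lt_of_le hW'lt hW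
        have hecst : ‖e‖ ^ 2 ≤ cst j' := by
          have h1 : (Fl.card : ℝ) ≤ j' := by exact_mod_cast hcardW'
          have h2 := le_cst j'
          linarith
        have hqe : ⟪q, e⟫_ℝ = 0 := by
          rw [he, inner_sub_right, inner_sum, inner_sum]
          have h1 : ∑ i ∈ S, ⟪q, v i⟫_ℝ = 0 :=
            Finset.sum_eq_zero fun i hi => hFlzero i (hSFl hi)
          have h2 : ∑ i ∈ Fl, ⟪q, t i • v i⟫_ℝ = 0 :=
            Finset.sum_eq_zero fun i hi => by rw [inner_smul_right, hFlzero i hi, mul_zero]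
          rw [h1, h2, sub_zero]
        have hue : ⟪u, e⟫_ℝ = 0 := by rw [hinn, hqe, zero_div]
        have hpq : proj u q = 0 := by
          rw [proj, huq, hu, smul_smul]
          have : r * (1 / r) = 1 := by field_simp
          rw [this, one_smul, sub_self]
        have hpe : proj u e = e := by
          rw [proj, hue, zero_smul, sub_zero]
        have hpmid : proj u (q + e) = e := by rw [proj_add, hpq, hpe, zero_add]
        have humid : ⟪u, q + e⟫_ℝ = r := by rw [inner_add_right, huq, hue, add_zero]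
        have hvv : ∀ i ∈ G, ‖proj u (v i)‖ ≤ 1 := by
          intro i hi
          have h1 := proj_norm_sq_le hu1 (v i)
          have h2 := hv1 i hi
          have h3 := norm_nonneg (v i)
          have h4 := norm_nonneg (proj u (v i))
          nlinarith
        -- the bound after peeling
        have hpeel : ∀ z : E, ∀ a : ℝ, ‖z‖ ^ 2 ≤ max (max (‖x‖ ^ 2) (‖y‖ ^ 2)) (cst j) →
            (a = ‖proj u z‖ ^ 2) →
            ⟪u, z⟫_ℝ ^ 2 + (max (max a (‖e‖ ^ 2)) (cst j') + tot j') ≤ B := by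
          intro z a hz ha
          have hdec := norm_sq_decomp hu1 z
          have hstep := tot_step hj'lt
          have htm := tot_mono hj'lt.le
          have hm : max (max a (‖e‖ ^ 2)) (cst j') ≤ max a (cst j') :=
            max_le (max_le (le_max_left _ _) (le_trans hecst (le_max_right _ _))) (le_max_right _ _)
          rw [hB]
          rcases le_total a (cst j') with hc | hc
          · rw [max_eq_right hc] at hm
            have h5 : ⟪u, z⟫_ℝ ^ 2 ≤ ‖z‖ ^ 2 := inner_sq_le hu1 z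
            linarith
          · rw [max_eq_left hc] at hm
            subst ha
            linarith
        have hpeel' : ∀ z : E, ∀ a : ℝ, ‖z‖ ^ 2 ≤ max (max (‖x‖ ^ 2) (‖y‖ ^ 2)) (cst j) →
            (a = ‖proj u z‖ ^ 2) →
            ⟪u, z⟫_ℝ ^ 2 + (max (max (‖e‖ ^ 2) a) (cst j') + tot j') ≤ B := by
          intro z a hz ha
          rw [max_comm (‖e‖ ^ 2) a]
          exact hpeel z a hz ha
        have hG₂sub : G \ G₁ ⊆ G := Finset.sdiff_subset
        -- first child
        have h1 := IHj j' hj'lt W' le_rfl G₁.card G₁ le_rfl (fun i => proj u (v i)) (proj u x)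
          (hprojW' x hx) (fun i hi => hprojW' _ (hvW i (hG₁sub hi))) (fun i hi => hvv i (hG₁sub hi))
        have hs1 : proj u x + ∑ i ∈ G₁, proj u (v i) = e := by
          rw [← proj_sum, ← proj_add, hmid, hpmid]
        rw [hs1] at h1
        have h1l := Good.lift_neg hu1 (v := v) (x := x) (G := G₁)
          (fun i hi => by
            rw [hinn]
            exact div_nonpos_of_nonpos_of_nonneg (hG₁neg i hi) hrpos.le)
          (by rw [hmid, humid]; exact hrpos.le) h1
        have h1g : Good v B x G₁ := h1l.mono (hpeel x _ (by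
          exact le_trans (le_max_left _ _) (le_max_left _ _)) rfl)
        -- second child
        have h2 := IHj j' hj'lt W' le_rfl (G \ G₁).card (G \ G₁) le_rfl (fun i => proj u (v i)) e
          (by rw [← hpmid]; exact hprojW' _ (W.add_mem hqW hemem))
          (fun i hi => hprojW' _ (hvW i (hG₂sub hi))) (fun i hi => hvv i (hG₂sub hi))
        have hs2 : e + ∑ i ∈ G \ G₁, proj u (v i) = proj u y := by
          rw [← hsplit, proj_add, proj_sum, hpmid]
        rw [hs2] at h2
        have h2' : Good (fun i => proj u (v i))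
            (max (max (‖e‖ ^ 2) (‖proj u y‖ ^ 2)) (cst j') + tot j') (proj u (q + e)) (G \ G₁) := by
          rw [hpmid]; exact h2
        have h2l := Good.lift_pos hu1 (v := v) (x := q + e) (G := G \ G₁)
          (fun i hi => by
            rw [hinn]
            exact div_nonneg (hG₂pos i hi) hrpos.le)
          (by rw [humid]; exact hrpos.le) h2'
        rw [hsplit] at h2l
        have h2g : Good v B (q + e) (G \ G₁) := h2l.mono (hpeel' y _ (by
          exact le_trans (le_max_right _ _) (le_max_left _ _)) rfl)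
        rw [← hmid] at h2g
        have h3 := Good.union Finset.disjoint_sdiff h1g h2g
        rwa [Finset.union_sdiff_of_subset hG₁sub] at h3

end Main


/-! ### The final statement -/

theorem exists_list (d N : ℕ) (v : Fin N → EuclideanSpace ℝ (Fin d)) (hv : ∀ i, ‖v i‖ ≤ 1)
    (h0 : ∑ i, v i = 0) :
    ∃ l : List (Fin N), l.Nodup ∧ l.toFinset = Finset.univ ∧
      ∀ k : ℕ, ‖((l.take k).map v).sum‖ ^ 2 ≤ (d : ℝ) * (d + 9) / 8 := by
  have hW : Module.finrank ℝ (⊤ : Submodule ℝ (EuclideanSpace ℝ (Fin d))) ≤ d := by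
    simp
  have h := node (E := EuclideanSpace ℝ (Fin d)) (ι := Fin N) d ⊤ hW N Finset.univ (by simp) v 0
    (Submodule.mem_top) (fun _ _ => Submodule.mem_top) (fun i _ => hv i)
  obtain ⟨l, n, e, g⟩ := h
  refine ⟨l, n, e, fun k => ?_⟩
  have h1 := g.initSeg k
  rw [zero_add] at h1
  refine le_trans h1 ?_
  rw [h0, add_zero, norm_zero]
  have h2 : max (max ((0 : ℝ) ^ 2) ((0 : ℝ) ^ 2)) (cst d) = cst d := by
    have := cst_nonneg d
    simp [this]
  rw [h2, ← tot_closed d, tot_succ, add_comm]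

theorem exists_perm (d N : ℕ) (v : Fin N → EuclideanSpace ℝ (Fin d)) (hv : ∀ i, ‖v i‖ ≤ 1)
    (h0 : ∑ i, v i = 0) :
    ∃ π : Equiv.Perm (Fin N), ∀ (k : ℕ) (hk : k ≤ N),
      ‖∑ i : Fin k, v (π (Fin.castLE hk i))‖ ≤ Real.sqrt ((d : ℝ) * (d + 9) / 8) := by
  obtain ⟨l, n, e, g⟩ := exists_list d N v hv h0
  have hmem : ∀ x : Fin N, x ∈ l := by
    intro x
    have : x ∈ l.toFinset := by rw [e]; exact Finset.mem_univ x
    simpa using this
  have hlen : l.length = N := by
    have h1 := List.toFinset_card_of_nodup n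
    rw [e, Finset.card_univ, Fintype.card_fin] at h1
    exact h1.symm
  let π : Equiv.Perm (Fin N) :=
    (finCongr hlen.symm).trans (List.Nodup.getEquivOfForallMemList l n hmem)
  have hπ : ∀ i : Fin N, π i = l[i.val]'(by rw [hlen]; exact i.2) := by
    intro i
    rfl
  refine ⟨π, ?_⟩
  have hsum : ∀ (k : ℕ) (hk : k ≤ N),
      ∑ i : Fin k, v (π (Fin.castLE hk i)) = ((l.take k).map v).sum := by
    intro k
    induction k with
    | zero => intro _; simp
    | succ k ih =>
      intro hk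
      have hk' : k ≤ N := by omega
      have hkl : k < l.length := by rw [hlen]; omega
      rw [Fin.sum_univ_castSucc, ← List.take_concat_get' l k hkl, List.map_append, List.sum_append,
        ← ih hk']
      congr 1
      simp [hπ]
  intro k hk
  rw [hsum k hk]
  apply Real.le_sqrt_of_sq_le
  exact g k

end Vale.Agent.Lib.P262
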